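import Mathlib
import Vale.Agent.Lib.P052.lead.Bridge

namespace Vale.Agent.Lib.P052

open Matrix Module

/-- the columns of an integer matrix as vectors of Euclidean space -/
noncomputable def colVec {n : ℕ} (N : Matrix (Fin n) (Fin n) ℤ) (u : Fin n) :
    EuclideanSpace ℝ (Fin n) :=
  WithLp.toLp 2 (fun i => (N i u : ℝ))

theorem gram_int {n : ℕ} (N : Matrix (Fin n) (Fin n) ℤ) (c : ℕ)
    (hsq : N.transpose * N = (c : ℤ) • N) (u v : Fin n) :
    ∑ i, N i u * N i v = (c : ℤ) * N u v := by
  have h := congrFun (congrFun hsq u) v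
  simp only [Matrix.mul_apply, Matrix.transpose_apply, Matrix.smul_apply, smul_eq_mul] at h
  exact h

theorem inner_colVec {n : ℕ} (N : Matrix (Fin n) (Fin n) ℤ) (c : ℕ)
    (hsq : N.transpose * N = (c : ℤ) • N) (u v : Fin n) :
    inner ℝ (colVec N u) (colVec N v) = (c : ℝ) * (N u v : ℝ) := by
  have h := gram_int N c hsq u v
  have h2 : (∑ i, (N i u : ℝ) * (N i v : ℝ)) = (c : ℝ) * (N u v : ℝ) := by
    exact_mod_cast h
  rw [← h2]
  simp only [colVec, PiLp.inner_apply]
  apply Finset.sum_congr rfl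
  intro i _
  simp [mul_comm]

theorem symm_of_sq {n : ℕ} (N : Matrix (Fin n) (Fin n) ℤ) (c : ℕ) (hc : 0 < c)
    (hsq : N.transpose * N = (c : ℤ) • N) : N.transpose = N := by
  have h1 : (N.transpose * N).transpose = N.transpose * N := by
    rw [Matrix.transpose_mul, Matrix.transpose_transpose]
  rw [hsq, Matrix.transpose_smul] at h1
  have hc' : (c : ℤ) ≠ 0 := by exact_mod_cast hc.ne'
  ext i j
  have h2 := congrFun (congrFun h1 i) j
  simp only [Matrix.smul_apply, smul_eq_mul] at h2
  exact mul_left_cancel₀ hc' h2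

theorem colVec_eq_toLpLin {n : ℕ} (N : Matrix (Fin n) (Fin n) ℤ) (u : Fin n) :
    colVec N u = Matrix.toLpLin 2 2 (N.map (Int.cast : ℤ → ℝ)) (EuclideanSpace.single u (1 : ℝ)) := by
  rw [Matrix.toLpLin_apply]
  simp only [colVec]
  congr 1
  ext i
  simp [Matrix.mulVec, dotProduct]

theorem finrank_range {n : ℕ} (N : Matrix (Fin n) (Fin n) ℤ) (c d : ℕ) (hc : 0 < c)
    (hsq : N.transpose * N = (c : ℤ) • N) (htr : N.trace = (c : ℤ) * (d : ℤ)) :
    finrank ℝ (LinearMap.range (Matrix.toLpLin 2 2 (N.map (Int.cast : ℤ → ℝ)))) = d := by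
  have hsymm := symm_of_sq N c hc hsq
  rw [hsymm] at hsq
  set NR : Matrix (Fin n) (Fin n) ℝ := N.map (Int.cast : ℤ → ℝ) with hNR
  have hcR : (c : ℝ) ≠ 0 := by exact_mod_cast hc.ne'
  have hNRsq : NR * NR = (c : ℝ) • NR := by
    have h := congrArg (fun M : Matrix (Fin n) (Fin n) ℤ => M.map (Int.cast : ℤ → ℝ)) hsq
    rw [Matrix.map_mul_intCast] at h
    rw [hNR, h]
    ext i j
    simp only [Matrix.map_apply, Matrix.smul_apply, smul_eq_mul, Int.cast_mul, Int.cast_natCast]
  set L := Matrix.toLpLin 2 2 NR with hL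
  have hLL : L ∘ₗ L = (c : ℝ) • L := by
    rw [hL, ← Matrix.toLpLin_mul_same, hNRsq, map_smul]
  have hproj : LinearMap.IsProj (LinearMap.range L) ((c : ℝ)⁻¹ • L) := by
    constructor
    · intro x
      rw [LinearMap.smul_apply]
      exact Submodule.smul_mem _ _ (LinearMap.mem_range_self L x)
    · rintro x ⟨y, rfl⟩
      have h := congrArg (fun f => f y) hLL
      simp only [LinearMap.comp_apply, LinearMap.smul_apply] at h
      rw [LinearMap.smul_apply, h, smul_smul, inv_mul_cancel₀ hcR, one_smul]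
  have htrace := hproj.trace
  have htrL : LinearMap.trace ℝ _ L = NR.trace := by
    rw [hL, Matrix.toLpLin_eq_toLin, Matrix.trace_toLin_eq]
  have hNRtr : NR.trace = (c : ℝ) * (d : ℝ) := by
    have h := congrArg (Int.cast : ℤ → ℝ) htr
    simp only [Matrix.trace, Matrix.diag_apply, Int.cast_sum, Int.cast_mul, Int.cast_natCast] at h
    simpa [Matrix.trace, hNR] using h
  rw [map_smul, htrL, hNRtr, smul_eq_mul, ← mul_assoc, inv_mul_cancel₀ hcR, one_mul] at htrace
  exact_mod_cast htrace.symm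

theorem lam_facts : ∃ lam : ℝ, 13 * lam ^ 2 + 2 * lam = 17 ∧ 0 < lam ∧ lam < 4 := by
  have h := Real.sq_sqrt (show (0 : ℝ) ≤ 222 by norm_num)
  have h1 : (1 : ℝ) < Real.sqrt 222 := by
    rw [Real.lt_sqrt (by norm_num)]
    norm_num
  have h2 : Real.sqrt 222 < 15 := by
    rw [Real.sqrt_lt' (by norm_num)]
    norm_num
  refine ⟨(-1 + Real.sqrt 222) / 13, ?_, ?_, ?_⟩
  · field_simp
    nlinarith
  · apply div_pos <;> linarith
  · rw [div_lt_iff₀ (by norm_num)]
    linarith

theorem dist_sq_eq {E : Type*} [NormedAddCommGroup E] [InnerProductSpace ℝ E] (x y : E) :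
    dist x y ^ 2 = inner ℝ x x - 2 * inner ℝ x y + inner ℝ y y := by
  rw [dist_eq_norm, norm_sub_sq_real, real_inner_self_eq_norm_sq, real_inner_self_eq_norm_sq]

open Matrix in
theorem borsuk_of_matrix {n : ℕ} (N : Matrix (Fin n) (Fin n) ℤ) (c d k : ℕ) (hc : 0 < c)
    (hsq : N.transpose * N = (c : ℤ) • N) (htr : N.trace = (c : ℤ) * (d : ℤ))
    (T : Finset (Fin n)) (v0 : Fin n) (hv0 : v0 ∈ T)
    (hdiag : ∀ u ∈ T, u ≠ v0 → N u u = 15) (hv0d : N v0 v0 = 13)
    (hoff : ∀ u ∈ T, ∀ v ∈ T, u ≠ v → N u v = 3 ∨ N u v = -1)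
    (hfar : ∃ u ∈ T, ∃ v ∈ T, u ≠ v ∧ N u v = -1)
    (hclique : ∀ P : Finset (Fin n), P ⊆ T → (∀ u ∈ P, ∀ v ∈ P, u ≠ v → N u v = 3) → P.card ≤ k)
    (hcard : k * (d + 1) < T.card) :
    ∃ Z : Set (EuclideanSpace ℝ (Fin d)), Z.Finite ∧ 0 < Metric.diam Z ∧
      ¬ ∃ P : Fin (d + 1) → Set (EuclideanSpace ℝ (Fin d)),
          (⋃ i, P i) = Z ∧ ∀ i, Metric.diam (P i) < Metric.diam Z := by
  classical
  obtain ⟨lam, hlam, hlam0, hlam4⟩ := lam_facts
  have hcR : (0 : ℝ) < c := by exact_mod_cast hc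
  set a : Fin n → ℝ := fun u => if u = v0 then lam else 1 with ha
  set p : Fin n → EuclideanSpace ℝ (Fin n) := fun u => a u • colVec N u with hp
  have hinner : ∀ u v, inner ℝ (p u) (p v) = a u * a v * ((c : ℝ) * (N u v : ℝ)) := by
    intro u v
    simp only [hp, real_inner_smul_left, real_inner_smul_right, inner_colVec N c hsq]
    ring
  have hdist : ∀ u v, dist (p u) (p v) ^ 2 = (c : ℝ) *
      (a u ^ 2 * (N u u : ℝ) - 2 * a u * a v * (N u v : ℝ) + a v ^ 2 * (N v v : ℝ)) := by
    intro u v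
    rw [dist_sq_eq, hinner, hinner, hinner]
    ring
  have keyE : ∀ u ∈ T, ∀ v ∈ T, u ≠ v →
      (N u v = -1 → a u ^ 2 * (N u u : ℝ) - 2 * a u * a v * (N u v : ℝ)
          + a v ^ 2 * (N v v : ℝ) = 32) ∧
      (N u v = 3 → 0 < a u ^ 2 * (N u u : ℝ) - 2 * a u * a v * (N u v : ℝ)
          + a v ^ 2 * (N v v : ℝ) ∧
        a u ^ 2 * (N u u : ℝ) - 2 * a u * a v * (N u v : ℝ)
          + a v ^ 2 * (N v v : ℝ) < 32) := by
    intro u hu v hv huv
    by_cases hu0 : u = v0
    · have hv0' : v ≠ v0 := fun h => huv (hu0.trans h.symm)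
      have hau : a u = lam := by simp [ha, hu0]
      have hav : a v = 1 := by simp [ha, hv0']
      have hNu : N u u = 13 := by rw [hu0]; exact hv0d
      have hNv : N v v = 15 := hdiag v hv hv0'
      rw [hau, hav, hNu, hNv]
      constructor
      · intro h
        rw [h]; push_cast; nlinarith
      · intro h
        rw [h]; push_cast
        constructor <;> nlinarith
    · by_cases hv0' : v = v0
      · have hau : a u = 1 := by simp [ha, hu0]
        have hav : a v = lam := by simp [ha, hv0']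
        have hNu : N u u = 15 := hdiag u hu hu0
        have hNv : N v v = 13 := by rw [hv0']; exact hv0d
        rw [hau, hav, hNu, hNv]
        constructor
        · intro h
          rw [h]; push_cast; nlinarith
        · intro h
          rw [h]; push_cast
          constructor <;> nlinarith
      · have hau : a u = 1 := by simp [ha, hu0]
        have hav : a v = 1 := by simp [ha, hv0']
        have hNu : N u u = 15 := hdiag u hu hu0
        have hNv : N v v = 15 := hdiag v hv hv0'
        rw [hau, hav, hNu, hNv]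
        constructor
        · intro h
          rw [h]; push_cast; norm_num
        · intro h
          rw [h]; push_cast
          constructor <;> norm_num
  have key : ∀ u ∈ T, ∀ v ∈ T, u ≠ v →
      (N u v = -1 → dist (p u) (p v) ^ 2 = 32 * (c : ℝ)) ∧
      (N u v = 3 → 0 < dist (p u) (p v) ^ 2 ∧ dist (p u) (p v) ^ 2 < 32 * (c : ℝ)) := by
    intro u hu v hv huv
    obtain ⟨h1, h2⟩ := keyE u hu v hv huv
    constructor
    · intro h
      rw [hdist, h1 h]; ring
    · intro h
      obtain ⟨h3, h4⟩ := h2 h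
      rw [hdist]
      constructor
      · exact mul_pos hcR h3
      · nlinarith
  set Y := T.image p with hY
  have hinj : Set.InjOn p T := by
    intro u hu v hv huv
    by_contra hne
    have hk := key u hu v hv hne
    rcases hoff u hu v hv hne with h | h
    · have h3 := (hk.2 h).1
      rw [huv, dist_self] at h3
      simp at h3
    · have h3 := hk.1 h
      rw [huv, dist_self] at h3
      nlinarith
  have hYcard : Y.card = T.card := Finset.card_image_of_injOn hinj
  have hD : 0 < Real.sqrt (32 * (c : ℝ)) := Real.sqrt_pos.mpr (by positivity)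
  refine borsuk_of_finite_config
    (LinearMap.range (Matrix.toLpLin 2 2 (N.map (Int.cast : ℤ → ℝ))))
    (finrank_range N c d hc hsq htr).le Y ?_ (Real.sqrt (32 * (c : ℝ))) hD ?_ ?_ k ?_
    (by rw [hYcard]; exact hcard)
  · intro y hy
    obtain ⟨u, hu, rfl⟩ := Finset.mem_image.mp hy
    simp only [hp]
    apply Submodule.smul_mem
    rw [colVec_eq_toLpLin]
    exact LinearMap.mem_range_self _ _
  · intro x hx y hy
    obtain ⟨u, hu, rfl⟩ := Finset.mem_image.mp hx
    obtain ⟨v, hv, rfl⟩ := Finset.mem_image.mp hy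
    by_cases huv : u = v
    · rw [huv, dist_self]; exact hD.le
    · apply Real.le_sqrt_of_sq_le
      rcases hoff u hu v hv huv with h | h
      · exact ((key u hu v hv huv).2 h).2.le
      · exact ((key u hu v hv huv).1 h).le
  · obtain ⟨u, hu, v, hv, huv, h⟩ := hfar
    refine ⟨p u, Finset.mem_image_of_mem p hu, p v, Finset.mem_image_of_mem p hv, ?_⟩
    rw [← (key u hu v hv huv).1 h, Real.sqrt_sq dist_nonneg]
  · intro P hPY hP
    have hPeq : P = (T.filter (fun u => p u ∈ P)).image p := by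
      ext y
      simp only [Finset.mem_image, Finset.mem_filter]
      constructor
      · intro hy
        obtain ⟨u, hu, rfl⟩ := Finset.mem_image.mp (hPY hy)
        exact ⟨u, ⟨hu, hy⟩, rfl⟩
      · rintro ⟨u, ⟨hu, hy⟩, rfl⟩
        exact hy
    rw [hPeq]
    refine le_trans Finset.card_image_le (hclique _ (Finset.filter_subset _ _) ?_)
    intro u hu v hv huv
    rw [Finset.mem_filter] at hu hv
    rcases hoff u hu.1 v hv.1 huv with h | h
    · exact h
    · exfalso
      have h1 := (key u hu.1 v hv.1 huv).1 h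
      have h2 := hP (p u) hu.2 (p v) hv.2
      have h3 : dist (p u) (p v) = Real.sqrt (32 * (c : ℝ)) := by
        rw [← h1, Real.sqrt_sq dist_nonneg]
      linarith

end Vale.Agent.Lib.P052
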